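import Vale.Agent.P216.AS.Defs
import Vale.Agent.P216.AS.Endgame707

/-!
# The contract between the geometric and the topological halves (P216, Theorem A)

`GSys Λ` bundles D1-D4 of note 9376 (helper707), `Bars`, `Bound`, `Base` are D5-D7.
The topological half proves `no_system : GSys Λ → Bars → Bound → Base → False`.
The geometric half constructs such a system on `Λ = LM M × ℂ` for a closed Riemannian manifold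
with finitely many closed geodesics.
-/

open Set Topology
open Module (finrank)

namespace Vale.Agent.P216

/-- D1-D4. -/
structure GSys (Λ : Type) [PseudoMetricSpace Λ] where
  /-- sublevel sets -/
  X : ℝ → Set Λ
  /-- deck transformation -/
  τ : Λ → Λ
  /-- reversal -/
  θ : Λ → Λ
  /-- `rot p` is the rotation by `1 / p` -/
  rot : ℕ → Λ → Λ
  /-- `ψ p` is the `p`-fold iteration -/
  ψ : ℕ → Λ → Λ
  ι : Type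
  fin : Finite ι
  /-- lengths of the prime closed geodesics -/
  ℓ : ι → ℝ
  ℓ_pos : ∀ i, 0 < ℓ i
  /-- critical sets -/
  K1 : ℝ → Set Λ
  K2 : ℝ → Set Λ
  -- D1
  mono : ∀ s t, s ≤ t → X s ⊆ X t
  compact : ∀ s, IsCompact (X s)
  cont_τ : ∀ s, ContinuousOn τ (X s)
  cont_θ : ∀ s, ContinuousOn θ (X s)
  cont_rot : ∀ p s, ContinuousOn (rot p) (X s)
  τ_mem : ∀ s, MapsTo τ (X s) (X s)
  θ_mem : ∀ s, MapsTo θ (X s) (X s)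
  rot_mem : ∀ p s, MapsTo (rot p) (X s) (X s)
  τ_τ : ∀ x, τ (τ x) = x
  θ_θ : ∀ x, θ (θ x) = x
  rot_pow : ∀ p : ℕ, 0 < p → ∀ x, (rot p)^[p] x = x
  τ_θ : ∀ x, τ (θ x) = θ (τ x)
  τ_rot : ∀ p x, τ (rot p x) = rot p (τ x)
  θ_rot : ∀ p x, rot p (θ (rot p x)) = θ x
  τ_ne : ∀ s, ∀ x ∈ X s, τ x ≠ x
  -- D2
  ψ_cont : ∀ p : ℕ, p.Prime → 2 < p → ∀ s, 0 ≤ s → ContinuousOn (ψ p) (X s)
  ψ_inj : ∀ p : ℕ, p.Prime → 2 < p → ∀ s, 0 ≤ s → InjOn (ψ p) (X s)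
  ψ_image : ∀ p : ℕ, p.Prime → 2 < p → ∀ s, 0 ≤ s →
    ψ p '' X s = {x ∈ X ((p : ℝ) * s) | rot p x = x}
  ψ_τ : ∀ p : ℕ, p.Prime → 2 < p → ∀ s, 0 ≤ s → ∀ x ∈ X s, ψ p (τ x) = τ (ψ p x)
  -- D3
  K1_compact : ∀ a, 0 < a → IsCompact (K1 a)
  K2_compact : ∀ a, 0 < a → IsCompact (K2 a)
  K1_sub : ∀ a, 0 < a → K1 a ⊆ X a
  K2_sub : ∀ a, 0 < a → K2 a ⊆ X a
  K_disj : ∀ a, 0 < a → Disjoint (K1 a) (K2 a)
  K1_τ : ∀ a, MapsTo τ (K1 a) (K1 a)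
  K2_τ : ∀ a, MapsTo τ (K2 a) (K2 a)
  K1_rot : ∀ p a, MapsTo (rot p) (K1 a) (K1 a)
  K2_rot : ∀ p a, MapsTo (rot p) (K2 a) (K2 a)
  K1_θ : ∀ a, MapsTo θ (K1 a) (K2 a)
  K2_θ : ∀ a, MapsTo θ (K2 a) (K1 a)
  K_empty : ∀ a, 0 < a → a ∉ AS.Crit ℓ → K1 a = ∅ ∧ K2 a = ∅
  K_free : ∀ p : ℕ, p.Prime → 2 < p → ∀ a, 0 < a → a / (p : ℝ) ∉ AS.Crit ℓ →
    ∀ x ∈ K1 a ∪ K2 a, rot p x ≠ x
  -- D4
  descent : ∀ p : ℕ, p.Prime → 2 < p → ∀ T, 0 < T → ∃ D : ℝ → Λ → Λ,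
    ContinuousOn (fun q : ℝ × Λ => D q.1 q.2) (Icc (0 : ℝ) 1 ×ˢ X T) ∧
    (∀ x ∈ X T, D 0 x = x) ∧
    (∀ u ∈ Icc (0 : ℝ) 1, ∀ s ≤ T, MapsTo (D u) (X s) (X s)) ∧
    (∀ u ∈ Icc (0 : ℝ) 1, ∀ x ∈ X T, D u (τ x) = τ (D u x)) ∧
    (∀ u ∈ Icc (0 : ℝ) 1, ∀ x ∈ X T, D u (rot p x) = rot p (D u x)) ∧
    (∀ x ∈ X T, D 1 (θ x) = θ (D 1 x)) ∧
    (∀ u ∈ Icc (0 : ℝ) 1, ∀ a, 0 < a → a ≤ T →
      MapsTo (D u) (K1 a) (K1 a) ∧ MapsTo (D u) (K2 a) (K2 a)) ∧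
    (∀ a, 0 < a → a < T → ∀ U : Set Λ, IsOpen U → K1 a ∪ K2 a ⊆ U →
      ∃ ε > 0, ∀ x ∈ X (a + ε), x ∉ U → D 1 x ∈ X (a - ε))

namespace GSys

variable {Λ : Type} [PseudoMetricSpace Λ] (S : GSys Λ)

/-- The twisted cohomology of `X s`: the `-1` part for the deck transformation. -/
abbrev V (k : Type) [Field k] (s : ℝ) (n : ℕ) : Type :=
  AS.Ha (fun _ : Unit => S.τ) (fun _ : Unit => (-1 : k)) (S.X s) n

/-- Twisted cochains of `X s` and those vanishing on small tuples. -/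
abbrev CS (k : Type) [Field k] (s : ℝ) : AS.Sub (AS.ASK Λ k) :=
  AS.Cc (fun _ : Unit => S.τ) (fun _ : Unit => (-1 : k)) (S.X s)

abbrev CT (k : Type) [Field k] (s : ℝ) : AS.Sub (AS.ASK Λ k) :=
  AS.Zr (fun _ : Unit => S.τ) (fun _ : Unit => (-1 : k)) (S.X s) (S.X s)

/-- D5: bounded bars. -/
def Bars : Prop := ∃ B : ℝ, 0 < B ∧ ∀ p : ℕ, ∀ _ : Fact p.Prime, 2 < p → ∀ s : ℝ, 0 < s →
  ∀ (h : S.X s ⊆ S.X (s + B)) (n : ℕ) (x : S.V (ZMod p) (s + B) n), AS.res h n x = 0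

/-- D6: uniform bound of the total dimension. -/
def Bound : Prop := ∃ K : ℕ, ∀ p : ℕ, ∀ _ : Fact p.Prime, 2 < p → ∀ s : ℝ, 0 < s →
  s ∉ AS.Crit S.ℓ → (∀ n, Module.Finite (ZMod p) (S.V (ZMod p) s n)) ∧
    ∀ m, ∑ n ∈ Finset.range m, finrank (ZMod p) (S.V (ZMod p) s n) ≤ K

/-- D7: at a small level the reversal acts as the identity and the Euler characteristic is not
zero. -/
def Base : Prop := ∃ s₀ : ℝ, 0 < s₀ ∧ (∀ i, s₀ < S.ℓ i) ∧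
  ∀ p : ℕ, ∀ _ : Fact p.Prime, 2 < p →
    (∀ n, ∀ f ∈ AS.Zc (S.CS (ZMod p) s₀) (S.CT (ZMod p) s₀) n,
      P265.AS.pb S.θ f - f ∈ AS.Bc (S.CS (ZMod p) s₀) (S.CT (ZMod p) s₀) n) ∧
    ∃ m, ∀ m' ≥ m, ∑ n ∈ Finset.range m', (-1 : ℤ) ^ n *
      (finrank (ZMod p) (S.V (ZMod p) s₀ n) : ℤ) ≠ 0

end GSys

end Vale.Agent.P216
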