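import Vale.Agent.P216.Spine.Build2

/-!
# Final assembly (P216, Theorem A)
-/

open Set Topology Bundle Manifold
open scoped ContDiff
open Vale.Agent.P216.H288 Vale.Agent.P216.H494 Vale.Agent.P216.L250

namespace Vale.Agent.P216

/-- Assembly: a contradiction for every `GeoList` gives infinitely many closed geodesics. -/
theorem infinite_of {E : Type*} [NormedAddCommGroup E] [NormedSpace ℝ E] [FiniteDimensional ℝ E]
    {M : Type} [MetricSpace M] [CompactSpace M] [ChartedSpace E M] [IsManifold 𝓘(ℝ, E) ∞ M]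
    [RiemannianBundle (fun x : M => TangentSpace 𝓘(ℝ, E) x)]
    [IsContMDiffRiemannianBundle 𝓘(ℝ, E) ∞ E (fun x : M => TangentSpace 𝓘(ℝ, E) x)]
    [IsRiemannianManifold 𝓘(ℝ, E) M] (H : Hol M)
    (hEnd : ∀ S : GSys (LM M × ℂ), S.Bars → S.Bound → S.Base → False)
    (h : ∀ (ρ : ℝ) (hρ : 0 < ρ) (hs : LS.UniqSeg M ρ) (G : GeoList M),
      (gsysOf H G hρ hs).Bars ∧ (gsysOf H G hρ hs).Bound ∧ (gsysOf H G hρ hs).Base) :
    (primeClosedGeodesicImages M).Infinite := by
  intro hfin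
  obtain ⟨ρ, hρ, hs, _⟩ := Geo.exists_uniqSeg E M
  obtain ⟨G⟩ := exists_geoList (nonBranching_of_riemannian (E := E) (M := M)) hfin
  obtain ⟨h5, h6, h7⟩ := h ρ hρ hs G
  exact hEnd _ h5 h6 h7

end Vale.Agent.P216
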