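import Vale.Agent.P216.Spine.Contract
import Vale.Agent.P216.Hol.DC
import Vale.Agent.P216.H494.CritCover

/-!
# Construction of the `GSys` of a closed manifold: D1-D3 (D4 is an argument)
-/

open Set Topology
open Vale.Agent.P216.H288 Vale.Agent.P216.H494 Vale.Agent.P216.L250

namespace Vale.Agent.P216

variable {M : Type} [MetricSpace M]

/-- The sublevel sets, defined for every real level. -/
def XX (H : Hol M) (s : ℝ) : Set (LM M × ℂ) := Xt H (max s 0)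

theorem XX_eq {H : Hol M} {s : ℝ} (hs : 0 ≤ s) : XX H s = Xt H s := by
  rw [XX, max_eq_left hs]

theorem XX_mono (H : Hol M) {s t : ℝ} (h : s ≤ t) : XX H s ⊆ XX H t :=
  Xt_mono (le_max_right _ _) (max_le_max_right _ h)

/-- D4 for the double cover. -/
def DescentStmt (H : Hol M) (G : GeoList M) : Prop :=
  ∀ p : ℕ, p.Prime → 2 < p → ∀ T : ℝ, 0 < T → ∃ D : ℝ → LM M × ℂ → LM M × ℂ,
    ContinuousOn (fun q : ℝ × (LM M × ℂ) => D q.1 q.2) (Icc (0 : ℝ) 1 ×ˢ XX H T) ∧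
    (∀ x ∈ XX H T, D 0 x = x) ∧
    (∀ u ∈ Icc (0 : ℝ) 1, ∀ s ≤ T, MapsTo (D u) (XX H s) (XX H s)) ∧
    (∀ u ∈ Icc (0 : ℝ) 1, ∀ x ∈ XX H T, D u (deckC x) = deckC (D u x)) ∧
    (∀ u ∈ Icc (0 : ℝ) 1, ∀ x ∈ XX H T,
      D u (rotC (1 / p : ℝ) x) = rotC (1 / p : ℝ) (D u x)) ∧
    (∀ x ∈ XX H T, D 1 (revC x) = revC (D 1 x)) ∧
    (∀ u ∈ Icc (0 : ℝ) 1, ∀ a, 0 < a → a ≤ T →
      MapsTo (D u) (Kt G H 1 a) (Kt G H 1 a) ∧ MapsTo (D u) (Kt G H (-1) a) (Kt G H (-1) a)) ∧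
    (∀ a, 0 < a → a < T → ∀ U : Set (LM M × ℂ), IsOpen U → Kt G H 1 a ∪ Kt G H (-1) a ⊆ U →
      ∃ ε > 0, ∀ x ∈ XX H (a + ε), x ∉ U → D 1 x ∈ XX H (a - ε))

/-- The `GSys` of a closed manifold with finitely many closed geodesics. -/
noncomputable def mkGSys [CompactSpace M] (H : Hol M) (G : GeoList M) (hD : DescentStmt H G) :
    GSys (LM M × ℂ) where
  X := XX H
  τ := deckC
  θ := revC
  rot p := rotC (1 / p : ℝ)
  ψ p := iterC p
  ι := G.ι
  fin := G.fin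
  ℓ := G.ℓ
  ℓ_pos := G.ℓ_pos
  K1 a := Kt G H 1 a
  K2 a := Kt G H (-1) a
  mono _ _ h := XX_mono H h
  compact s := isCompact_Xt (le_max_right _ _)
  cont_τ _ := continuous_deckC.continuousOn
  cont_θ _ := continuous_revC.continuousOn
  cont_rot _ _ := (continuous_rotC _).continuousOn
  τ_mem _ _ h := deckC_mem h
  θ_mem _ _ h := revC_mem h
  rot_mem _ _ _ h := rotC_mem h _
  τ_τ := deckC_deckC
  θ_θ := revC_revC
  rot_pow p hp x := iterate_rotC_self hp x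
  τ_θ := deckC_revC
  τ_rot _ _ := rfl
  θ_rot _ x := revC_rotC' _ x
  τ_ne _ _ h := deckC_ne h
  ψ_cont p hp _ _ _ := (continuous_iterC hp.pos).continuousOn
  ψ_inj p hp h2 s hs := by
    rw [XX_eq hs]
    exact (bijOn_iterC (hp.odd_of_ne_two (by omega))).injOn
  ψ_image p hp h2 s hs := by
    have hps : (0 : ℝ) ≤ p * s := mul_nonneg (Nat.cast_nonneg _) hs
    rw [XX_eq hs, XX_eq hps, image_iterC (hp.odd_of_ne_two (by omega))]
    rfl
  ψ_τ p hp h2 s _ x _ := (deckC_iterC (hp.odd_of_ne_two (by omega)) x).symm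
  K1_compact a ha := isCompact_Kt H (Or.inl rfl) ha
  K2_compact a ha := isCompact_Kt H (Or.inr rfl) ha
  K1_sub a ha := by
    rw [XX_eq ha.le]
    exact Kt_subset H (Or.inl rfl) ha.le
  K2_sub a ha := by
    rw [XX_eq ha.le]
    exact Kt_subset H (Or.inr rfl) ha.le
  K_disj a ha := disjoint_Kt H ha
  K1_τ a _ h := deck_mem_Kt H h
  K2_τ a _ h := deck_mem_Kt H h
  K1_rot p a _ h := rot_mem_Kt H h
  K2_rot p a _ h := rot_mem_Kt H h
  K1_θ a _ h := rev_mem_Kt H h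
  K2_θ a x h := by
    have := rev_mem_Kt H h
    rwa [neg_neg] at this
  K_empty a ha hc := ⟨Kt_eq_empty H (Or.inl rfl) ha hc, Kt_eq_empty H (Or.inr rfl) ha hc⟩
  K_free p hp h2 a ha hc x hx := by
    rcases hx with hx | hx
    · exact not_fixed_Kt H (Or.inl rfl) ha hp.pos hc hx
    · exact not_fixed_Kt H (Or.inr rfl) ha hp.pos hc hx
  descent := hD

end Vale.Agent.P216
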