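import Vale.Agent.P216.Spine.Main
import Vale.Agent.P216.AS.NoGSys
import Vale.Agent.P216.H288.SweepMain
import Vale.Agent.P216.H826.BarsG
import Vale.Agent.P216.H804.D6
import Vale.Agent.P216.GM.TW
import Vale.Agent.P216.H319.Loc
import Vale.Agent.P216.H844.F4Fin
import Vale.Agent.P216.Low.CPn
import Vale.Agent.P216.H41.Eul3

/-!
# Theorem A (P216): assembly of all blocks
-/

open Set Topology Bundle Manifold
open scoped ContDiff
open Vale.Agent.P216.H288 Vale.Agent.P216.H494 Vale.Agent.P216.L250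

namespace Vale.Agent.P216

/-- Theorem A, with the base input as a hypothesis. -/
theorem infinite_of_base {E : Type} [NormedAddCommGroup E] [NormedSpace ℝ E]
    [FiniteDimensional ℝ E]
    {M : Type} [MetricSpace M] [CompactSpace M] [ChartedSpace E M] [IsManifold 𝓘(ℝ, E) ∞ M]
    [RiemannianBundle (fun x : M => TangentSpace 𝓘(ℝ, E) x)]
    [IsContMDiffRiemannianBundle 𝓘(ℝ, E) ∞ E (fun x : M => TangentSpace 𝓘(ℝ, E) x)]
    [IsRiemannianManifold 𝓘(ℝ, E) M] [PreconnectedSpace M]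
    {K d : ℕ} (hd : Odd d) (Φ : C(M, CPn (K + 1))) (f : C(CPn 1, M))
    (hf : (Φ.comp f).Homotopic (powMap K d))
    (hbase : ∀ (H : Hol M) (G : GeoList M) (hD : DescentStmt H G), (mkGSys H G hD).Base) :
    (primeClosedGeodesicImages M).Infinite := by
  obtain ⟨ρ, hρ, hs, _⟩ := Geo.exists_uniqSeg E M
  obtain ⟨H, hH⟩ := exists_hol_sweep hρ hs hd Φ f hf
  refine infinite_of (E := E) H (fun S => S.no_gsys) fun ρ' hρ' hs' G => ?_
  have hB : (gsysOf H G hρ' hs').Bars := H826.bars_mkGSys H G _ hρ hs hH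
  refine ⟨hB, ?_, hbase H G _⟩
  exact GM.bound hρ hs (H319.loc (E := E) hρ hs (H844.f4_M E M)) GM.tw H G _ hB

/-- Theorem A for manifolds homotopy equivalent to `ℂP^n`. -/
theorem infinite_CPn {E : Type} [NormedAddCommGroup E] [NormedSpace ℝ E]
    [FiniteDimensional ℝ E]
    {M : Type} [MetricSpace M] [CompactSpace M] [ChartedSpace E M] [IsManifold 𝓘(ℝ, E) ∞ M]
    [RiemannianBundle (fun x : M => TangentSpace 𝓘(ℝ, E) x)]
    [IsContMDiffRiemannianBundle 𝓘(ℝ, E) ∞ E (fun x : M => TangentSpace 𝓘(ℝ, E) x)]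
    [IsRiemannianManifold 𝓘(ℝ, E) M] [PreconnectedSpace M]
    (n : ℕ) (e : ContinuousMap.HomotopyEquiv M (CPn (n + 1))) :
    (primeClosedGeodesicImages M).Infinite := by
  refine infinite_of_base (E := E) (K := n) (d := 1) odd_one e.toFun (e.invFun.comp (powMap n 1)) ?_
    (fun H G hD => base_CPn e H G hD)
  have h := ContinuousMap.Homotopic.comp e.right_inv (ContinuousMap.Homotopic.refl (powMap n 1))
  exact h

/-- Theorem A, general form. -/
theorem infinite_space {E : Type} [NormedAddCommGroup E] [NormedSpace ℝ E]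
    [FiniteDimensional ℝ E]
    {M : Type} [MetricSpace M] [CompactSpace M] [ChartedSpace E M] [IsManifold 𝓘(ℝ, E) ∞ M]
    [RiemannianBundle (fun x : M => TangentSpace 𝓘(ℝ, E) x)]
    [IsContMDiffRiemannianBundle 𝓘(ℝ, E) ∞ E (fun x : M => TangentSpace 𝓘(ℝ, E) x)]
    [IsRiemannianManifold 𝓘(ℝ, E) M] [PreconnectedSpace M]
    {K d : ℕ} (hd : Odd d) (Φ : C(M, CPn (K + 1))) (f : C(CPn 1, M))
    (hf : (Φ.comp f).Homotopic (powMap K d))
    {V : Type} [NormedAddCommGroup V] [NormedSpace ℝ V]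
    (T : Geometry.SimplicialComplex ℝ V) (hT : T.faces.Finite)
    (e : ContinuousMap.HomotopyEquiv M T.space) (hχ : eulerChar T hT ≠ 0) :
    (primeClosedGeodesicImages M).Infinite := by
  refine infinite_of_base (E := E) hd Φ f hf fun H G hD => base_of_euler H G hD fun p hp _ => ?_
  obtain ⟨m₀, h⟩ := (H41.euler_space T hT e (ZMod p)).2
  exact ⟨m₀, fun m hm => (h m hm).trans_ne hχ⟩

end Vale.Agent.P216
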